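import Vale.Agent.P113.Main

open Set MeasureTheory
open scoped ContDiff

namespace Vale.Agent.P113

/-- The positive answer for the viscosity `ν`.  There are a point `a` of the torus, an open subset
`O` of the torus, a time `T₀`, and a computable map `compile` that sends every pair (machine,
input) to a program for an effective smooth force, such that:
from time `T₀` on, the force does not depend on the input and is periodic in time; and
for every machine `M` and input `w` the forced Navier-Stokes system started from rest has a global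
smooth solution, which on every `[0,T]` is the only classical solution; its trajectory from `a`
exists for all times and it meets `O` at some time `t ≥ 0` if and only if `M` halts on `w`. -/
def HaltingDetection (ν : ℝ) : Prop :=
  ∃ (a : Space) (O : Set (Fin 3 → UnitAddCircle)) (T₀ : ℝ)
    (compile : Machine × List ℕ → Nat.Partrec.Code)
    (force : Machine → List ℕ → ℝ → Space → Space),
    IsOpen O ∧ 0 ≤ T₀ ∧ Computable compile ∧
    (∀ M w, IsSmoothForce (force M w) ∧ IsProgramFor (compile (M, w)) (force M w)) ∧
    (∀ M w w' t, T₀ ≤ t → force M w t = force M w' t) ∧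
    (∃ τ : ℝ, 0 < τ ∧ ∀ M w t, T₀ ≤ t → force M w (t + τ) = force M w t) ∧
    ∀ M w, ∃ (u : ℝ → Space → Space) (p : ℝ → Space → ℝ),
      ContDiff ℝ ∞ (fun q : ℝ × Space => u q.1 q.2) ∧
      ContDiff ℝ ∞ (fun q : ℝ × Space => p q.1 q.2) ∧
      (∀ T, 0 < T → IsClassicalSolution ν T (force M w) u p) ∧
      (∀ T, 0 < T → ∀ u' p', IsClassicalSolution ν T (force M w) u' p' →
        ∀ t ∈ Icc 0 T, ∀ x, u' t x = u t x ∧ p' t x = p t x) ∧
      (∃ X, IsTrajectory u a X) ∧
      ∀ X, IsTrajectory u a X → ((∃ t, 0 ≤ t ∧ toTorus (X t) ∈ O) ↔ Halts M w)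

end Vale.Agent.P113

open Vale.Agent.P113
/-- For every computable `ν > 0`, halting of machines is detected by particle trajectories of
forced Navier-Stokes flows from rest on the three-torus. -/
theorem Vale.Agent.Results.P113.ForceCompiler.result :
    ∀ ν : ℝ, 0 < ν → ComputableReal ν → HaltingDetection ν := by
  intro ν hν hc
  obtain ⟨c, h1, h2⟩ := exists_kconst
  obtain ⟨compile, hcomp, hprog⟩ := exists_compiler c hc
  refine ⟨0, target, 1, compile, fun M w => frc (ratVal (kcode c w)) ν M, isOpen_target,
    zero_le_one, hcomp, fun M w => ⟨⟨contDiff_frc _ _ _, fun t => torus_frc _ _ _ t⟩, hprog M w⟩,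
    ?_, ⟨1, one_pos, ?_⟩, ?_⟩
  · intro M w w' t ht
    funext x
    show frc (ratVal (kcode c w)) ν M t x = frc (ratVal (kcode c w')) ν M t x
    unfold frc
    rw [D_zero_right 1 t ht, mul_zero, mul_zero]
  · intro M w t ht
    funext x
    show frc (ratVal (kcode c w)) ν M (t + 1) x = frc (ratVal (kcode c w)) ν M t x
    unfold frc
    rw [Q_periodic ht, Q_periodic ht, D_zero_right 1 t ht, D_zero_right 1 (t + 1) (by linarith)]
  · intro M w
    refine ⟨vel (ratVal (kcode c w)) M, fun _ _ => 0, contDiff_vel _ _, contDiff_const,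
      fun T hT => classical_vel _ _ _ hT, ?_, ⟨_, isTrajectory_traj _ _⟩, ?_⟩
    · intro T hT u' p' h' t ht x
      exact unique_solution hν.le hT h' (classical_vel _ _ _ hT) ht x
    · intro X hX
      rw [reach_iff hX (Gp_nonneg h1 h2 M w)]
      exact Gp_pos_iff h1 h2 M w
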